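import Vale.Agent.P186.Residual

namespace Vale.Agent.Results.P186.LinearOrbitalRF

open Subgroup Vale.Agent.P196 Vale.Agent.P186

universe u v

/-- Finitely presented subgroups of groups acting faithfully with uniformly linearly growing
orbital graphs: the finite residual is torsion, so the torsion-free ones are residually finite. -/
theorem result :
    ∀ (Γ : Type u) [Group Γ] (Ω : Type v) [MulAction Γ Ω] [FaithfulSMul Γ Ω] (S : Set Γ),
      S.Finite → closure S = ⊤ → ∀ C : ℕ,
      (∀ (x : Ω) (n : ℕ), 0 < n → (ball S x n).ncard ≤ C * n) →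
      ∀ (H : Subgroup Γ) [Group.IsFinitelyPresented H],
        (∀ g : H, (∀ N : Subgroup H, N.Normal → N.FiniteIndex → g ∈ N) → IsOfFinOrder g) ∧
          ((∀ g : H, IsOfFinOrder g → g = 1) → Group.ResiduallyFinite H) := by
  intro Γ _ Ω _ _ S hS hgen C hlin H _
  have key : ∀ g : H, (∀ N : Subgroup H, N.Normal → N.FiniteIndex → g ∈ N) → IsOfFinOrder g :=
    fun g hg => residual_torsion hS hgen hlin H g hg
  refine ⟨key, fun htf => Group.residuallyFinite_iff_forall_finiteIndexNormalSubgroup.2
    fun g hg => htf g (key g fun N hN hN' => ?_)⟩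
  exact hg ⟨N, hN, hN'⟩

end Vale.Agent.Results.P186.LinearOrbitalRF
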